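import Vale.Agent.P240.H138.F5d

/-!
helper138's solutions for mixed frames of quadratic spaces over the field with five elements
(`F5a`, `F5b`), with values in an arbitrary commutative ring instead of the rational numbers.
-/

set_option autoImplicit false
set_option linter.all false

namespace Vale.Agent.P240.R2.H987.F5K

open Finset Matrix
open Vale.Agent.P240.H138.F5 (Lt rl Pln)
open Vale.Agent.P240.R2.H986 (ev ev_nil ev_single ev_cons)
open scoped Classical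

universe u w

noncomputable section

variable {𝕜 : Type w} [Field 𝕜]

/-- the free algebra -/
abbrev R (𝕜 : Type w) [Field 𝕜] := FreeAlgebra 𝕜 (Fin 4)

/-- the generators -/
def Y (i : Fin 4) : R 𝕜 := FreeAlgebra.ι 𝕜 i

/-- the relation -/
def ρ : R 𝕜 := Y 0 * Y 3 + Y 3 * Y 0 + Y 1 * Y 2 + Y 2 * Y 1

/-- the parity automorphism -/
def σ : R 𝕜 →ₐ[𝕜] R 𝕜 := FreeAlgebra.lift 𝕜 (fun i => - Y i)

@[simp] lemma σ_Y (i : Fin 4) : σ (Y i : R 𝕜) = - Y i := by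
  simp [σ, Y]

/-- induction -/
lemma ind {P : R 𝕜 → Prop} (h1 : ∀ c : 𝕜, P (algebraMap 𝕜 (R 𝕜) c)) (h2 : ∀ i, P (Y i))
    (h3 : ∀ a b, P a → P b → P (a * b)) (h4 : ∀ a b, P a → P b → P (a + b)) (a : R 𝕜) : P a :=
  FreeAlgebra.induction 𝕜 (Fin 4) (motive := P) h1 h2 h3 h4 a

/-- `a ↦ (σ a, D a; 0, a)` -/
def Θ (d : Fin 4 → R 𝕜) : R 𝕜 →ₐ[𝕜] Matrix (Fin 2) (Fin 2) (R 𝕜) :=
  FreeAlgebra.lift 𝕜 (fun i => !![-Y i, d i; 0, Y i])

lemma Θ_Y (d : Fin 4 → R 𝕜) (i : Fin 4) : Θ d (Y i) = !![-Y i, d i; 0, Y i] := by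
  rw [Θ, Y, FreeAlgebra.lift_ι_apply]
  rfl

/-- the odd derivation with `y_i ↦ d_i` -/
def D (d : Fin 4 → R 𝕜) : R 𝕜 →ₗ[𝕜] R 𝕜 where
  toFun a := Θ d a 0 1
  map_add' a b := by rw [map_add]; rfl
  map_smul' c a := by rw [map_smul]; rfl

lemma Θ_eq (d : Fin 4 → R 𝕜) (a : R 𝕜) : Θ d a = !![σ a, D d a; 0, a] := by
  have key : Θ d a 0 0 = σ a ∧ Θ d a 1 0 = 0 ∧ Θ d a 1 1 = a := by
    refine ind (P := fun a => Θ d a 0 0 = σ a ∧ Θ d a 1 0 = 0 ∧ Θ d a 1 1 = a) ?_ ?_ ?_ ?_ a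
    · intro c
      simp [Matrix.algebraMap_matrix_apply]
    · intro i
      rw [Θ_Y]
      simp
    · rintro a b ⟨h1, h2, h3⟩ ⟨h4, h5, h6⟩
      simp [map_mul, Matrix.mul_apply, Fin.sum_univ_two, h1, h2, h3, h4, h5, h6]
    · rintro a b ⟨h1, h2, h3⟩ ⟨h4, h5, h6⟩
      simp [map_add, h1, h2, h3, h4, h5, h6]
  obtain ⟨h1, h2, h3⟩ := key
  ext i j
  fin_cases i <;> fin_cases j
  · exact h1
  · rfl
  · exact h2
  · exact h3

@[simp] lemma D_Y (d : Fin 4 → R 𝕜) (i : Fin 4) : D d (Y i) = d i := by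
  change Θ d (Y i) 0 1 = _
  rw [Θ_Y]
  rfl

lemma D_mul (d : Fin 4 → R 𝕜) (a b : R 𝕜) : D d (a * b) = D d a * b + σ a * D d b := by
  change Θ d (a * b) 0 1 = _
  rw [map_mul, Θ_eq, Θ_eq, Matrix.mul_apply, Fin.sum_univ_two]
  simp
  abel

lemma D_algebraMap (d : Fin 4 → R 𝕜) (c : 𝕜) : D d (algebraMap 𝕜 (R 𝕜) c) = 0 := by
  change Θ d (algebraMap 𝕜 (R 𝕜) c) 0 1 = _
  rw [AlgHom.commutes]
  rw [Matrix.algebraMap_matrix_apply]
  simp

lemma D_one (d : Fin 4 → R 𝕜) : D d 1 = 0 := by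
  have := D_algebraMap d 1
  rwa [map_one] at this

/-- `D σ = - σ D` if the `d_i` are even -/
lemma D_σ (d : Fin 4 → R 𝕜) (hd : ∀ i, σ (d i) = d i) (a : R 𝕜) : D d (σ a) = - σ (D d a) := by
  refine ind (P := fun a => D d (σ a) = - σ (D d a)) ?_ ?_ ?_ ?_ a
  · intro c
    rw [AlgHom.commutes, D_algebraMap, map_zero, neg_zero]
  · intro i
    rw [σ_Y, map_neg, D_Y, hd]
  · intro a b ha hb
    rw [map_mul, D_mul, D_mul, ha, hb, map_add, map_mul, map_mul]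
    noncomm_ring
  · intro a b ha hb
    rw [map_add, map_add, map_add, ha, hb, map_add]
    abel

/-- the ideal generated by the relation -/
def I : Submodule 𝕜 (R 𝕜) := Submodule.span 𝕜 {x | ∃ a b : R 𝕜, x = a * ρ * b}

lemma I_mul_left (a : R 𝕜) {x : R 𝕜} (hx : x ∈ I) : a * x ∈ I := by
  refine Submodule.span_induction (p := fun x _ => a * x ∈ I) ?_ ?_ ?_ ?_ hx
  · rintro _ ⟨b, c, rfl⟩
    exact Submodule.subset_span ⟨a * b, c, by noncomm_ring⟩
  · rw [mul_zero]; exact zero_mem _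
  · intro x y _ _ h1 h2
    rw [mul_add]
    exact add_mem h1 h2
  · intro c x _ h1
    rw [mul_smul_comm]
    exact Submodule.smul_mem _ _ h1

lemma I_mul_right (a : R 𝕜) {x : R 𝕜} (hx : x ∈ I) : x * a ∈ I := by
  refine Submodule.span_induction (p := fun x _ => x * a ∈ I) ?_ ?_ ?_ ?_ hx
  · rintro _ ⟨b, c, rfl⟩
    exact Submodule.subset_span ⟨b, c * a, by noncomm_ring⟩
  · rw [zero_mul]; exact zero_mem _
  · intro x y _ _ h1 h2
    rw [add_mul]
    exact add_mem h1 h2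
  · intro c x _ h1
    rw [smul_mul_assoc]
    exact Submodule.smul_mem _ _ h1

lemma ρ_mem : (ρ : R 𝕜) ∈ I := Submodule.subset_span ⟨1, 1, by rw [one_mul, mul_one]⟩

lemma D_I (d : Fin 4 → R 𝕜) (hd : D d ρ = 0) {x : R 𝕜} (hx : x ∈ I) : D d x ∈ I := by
  refine Submodule.span_induction (p := fun x _ => D d x ∈ I) ?_ ?_ ?_ ?_ hx
  · rintro _ ⟨b, c, rfl⟩
    have hσ : σ (ρ : R 𝕜) = ρ := by simp [ρ]
    rw [D_mul, D_mul, hd, map_mul, hσ, mul_zero, add_zero]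
    exact add_mem (Submodule.subset_span ⟨_, _, rfl⟩) (Submodule.subset_span ⟨_, _, rfl⟩)
  · rw [map_zero]; exact zero_mem _
  · intro x y _ _ h1 h2
    rw [map_add]
    exact add_mem h1 h2
  · intro c x _ h1
    rw [map_smul]
    exact Submodule.smul_mem _ _ h1

/-- the values of the first derivation -/
def d1 : Fin 4 → R 𝕜 :=
  ![-2 * (Y 2 * Y 2), -2 * (Y 3 * Y 2 + Y 2 * Y 3), -2 * (Y 0 * Y 1 + Y 1 * Y 0), -2 * (Y 1 * Y 1)]

/-- the values of the second derivation -/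
def d2 : Fin 4 → R 𝕜 :=
  ![-2 * (Y 3 * Y 1 + Y 1 * Y 3), -2 * (Y 0 * Y 0), -2 * (Y 3 * Y 3), -2 * (Y 0 * Y 2 + Y 2 * Y 0)]

lemma σ_two : σ (2 : R 𝕜) = 2 := map_ofNat σ 2

lemma d1_even (i : Fin 4) : σ (d1 i : R 𝕜) = d1 i := by
  fin_cases i <;> simp [d1, σ_two]

lemma d2_even (i : Fin 4) : σ (d2 i : R 𝕜) = d2 i := by
  fin_cases i <;> simp [d2, σ_two]

lemma D1_ρ : D d1 (ρ : R 𝕜) = 0 := by
  simp only [ρ, map_add, D_mul, D_Y, σ_Y, d1]
  simp
  noncomm_ring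

lemma D2_ρ : D d2 (ρ : R 𝕜) = 0 := by
  simp only [ρ, map_add, D_mul, D_Y, σ_Y, d2]
  simp
  noncomm_ring

/-- `D₁² + D₂²` vanishes modulo the ideal -/
lemma sq_mem (a : R 𝕜) : D d1 (D d1 a) + D d2 (D d2 a) ∈ I := by
  refine ind (P := fun a => D d1 (D d1 a) + D d2 (D d2 a) ∈ I) ?_ ?_ ?_ ?_ a
  · intro c
    rw [D_algebraMap, D_algebraMap, map_zero, map_zero, add_zero]
    exact zero_mem _
  · intro i
    have h1 : D d1 (D d1 (Y i : R 𝕜)) + D d2 (D d2 (Y i)) = 4 * Y i * ρ + -4 * ρ * Y i := by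
      fin_cases i <;>
      · simp [D_mul, d1, d2, ρ, two_mul, ← sub_eq_add_neg]
        noncomm_ring
    rw [h1]
    exact add_mem (I_mul_left _ ρ_mem) (I_mul_right _ (I_mul_left _ ρ_mem))
  · intro a b ha hb
    have h1 : D d1 (D d1 (a * b)) + D d2 (D d2 (a * b)) =
        (D d1 (D d1 a) + D d2 (D d2 a)) * b + a * (D d1 (D d1 b) + D d2 (D d2 b)) := by
      rw [D_mul, D_mul, map_add, map_add, D_mul, D_mul, D_mul, D_mul, D_σ _ d1_even,
        D_σ _ d2_even]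
      have hσσ : ∀ x : R 𝕜, σ (σ x) = x := by
        intro x
        refine ind (P := fun x => σ (σ x) = x) ?_ ?_ ?_ ?_ x
        · intro c; rw [AlgHom.commutes, AlgHom.commutes]
        · intro i; rw [σ_Y, map_neg, σ_Y, neg_neg]
        · intro x y hx hy; rw [map_mul, map_mul, hx, hy]
        · intro x y hx hy; rw [map_add, map_add, hx, hy]
      rw [hσσ]
      noncomm_ring
    rw [h1]
    exact add_mem (I_mul_right _ ha) (I_mul_left _ hb)
  · intro a b ha hb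
    have h1 : D d1 (D d1 (a + b)) + D d2 (D d2 (a + b)) =
        (D d1 (D d1 a) + D d2 (D d2 a)) + (D d1 (D d1 b) + D d2 (D d2 b)) := by
      rw [map_add, map_add, map_add, map_add]
      abel
    rw [h1]
    exact add_mem ha hb

/-- `D₁ D₂ + D₂ D₁ = 0` -/
lemma anti (a : R 𝕜) : D d1 (D d2 a) + D d2 (D d1 a) = 0 := by
  refine ind (P := fun a => D d1 (D d2 a) + D d2 (D d1 a) = 0) ?_ ?_ ?_ ?_ a
  · intro c
    rw [D_algebraMap, D_algebraMap, map_zero, map_zero, add_zero]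
  · intro i
    fin_cases i <;>
    · simp [D_mul, d1, d2, two_mul, ← sub_eq_add_neg]
      noncomm_ring
  · intro a b ha hb
    have h1 : D d1 (D d2 (a * b)) + D d2 (D d1 (a * b)) =
        (D d1 (D d2 a) + D d2 (D d1 a)) * b + a * (D d1 (D d2 b) + D d2 (D d1 b)) := by
      rw [D_mul, D_mul, map_add, map_add, D_mul, D_mul, D_mul, D_mul, D_σ _ d1_even,
        D_σ _ d2_even]
      have hσσ : ∀ x : R 𝕜, σ (σ x) = x := by
        intro x
        refine ind (P := fun x => σ (σ x) = x) ?_ ?_ ?_ ?_ x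
        · intro c; rw [AlgHom.commutes, AlgHom.commutes]
        · intro i; rw [σ_Y, map_neg, σ_Y, neg_neg]
        · intro x y hx hy; rw [map_mul, map_mul, hx, hy]
        · intro x y hx hy; rw [map_add, map_add, hx, hy]
      rw [hσσ]
      noncomm_ring
    rw [h1, ha, hb, zero_mul, mul_zero, add_zero]
  · intro a b ha hb
    have h1 : D d1 (D d2 (a + b)) + D d2 (D d1 (a + b)) =
        (D d1 (D d2 a) + D d2 (D d1 a)) + (D d1 (D d2 b) + D d2 (D d1 b)) := by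
      rw [map_add, map_add, map_add, map_add]
      abel
    rw [h1, ha, hb, add_zero]

/-- the operators of the letters -/
def op : Lt → R 𝕜 →ₗ[𝕜] R 𝕜
  | Lt.o1 => D d1
  | Lt.o2 => D d2
  | Lt.y1 => LinearMap.mulLeft 𝕜 (Y 0)
  | Lt.y2 => LinearMap.mulLeft 𝕜 (Y 1)
  | Lt.y3 => LinearMap.mulLeft 𝕜 (Y 2)
  | Lt.y4 => LinearMap.mulLeft 𝕜 (Y 3)

lemma op_I (a : Lt) {x : R 𝕜} (hx : x ∈ I) : op a x ∈ I := by
  cases a
  · exact D_I _ D1_ρ hx
  · exact D_I _ D2_ρ hx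
  all_goals exact I_mul_left _ hx

/-- the relations hold modulo the ideal -/
theorem rl_mem (i : Fin 11) (x : R 𝕜) : ((rl i).map fun p => op p.1 (op p.2 x)).sum ∈ I := by
  have h0 : ∀ y : R 𝕜, y = 0 → y ∈ I := fun y hy => hy ▸ zero_mem I
  fin_cases i
  · change D d1 (D d1 x) + (D d1 (D d1 x) + (D d2 (D d2 x) + (D d2 (D d2 x) + 0))) ∈ I
    have h1 := sq_mem x
    have h2 : D d1 (D d1 x) + (D d1 (D d1 x) + (D d2 (D d2 x) + (D d2 (D d2 x) + 0))) =
      (D d1 (D d1 x) + D d2 (D d2 x)) + (D d1 (D d1 x) + D d2 (D d2 x)) := by abel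
    rw [h2]
    exact add_mem h1 h1
  · apply h0
    change Y 0 * (Y 0 * x) + (Y 0 * (Y 0 * x) + (Y 1 * D d2 x + (D d2 (Y 1 * x) + 0))) = 0
    rw [D_mul, D_Y, σ_Y]
    simp [d2]
    noncomm_ring
  · apply h0
    change Y 3 * (Y 3 * x) + (Y 3 * (Y 3 * x) + (Y 2 * D d2 x + (D d2 (Y 2 * x) + 0))) = 0
    rw [D_mul, D_Y, σ_Y]
    simp [d2]
    noncomm_ring
  · apply h0
    change Y 1 * (Y 1 * x) + (Y 1 * (Y 1 * x) + (Y 3 * D d1 x + (D d1 (Y 3 * x) + 0))) = 0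
    rw [D_mul, D_Y, σ_Y]
    simp [d1]
    noncomm_ring
  · apply h0
    change Y 2 * (Y 2 * x) + (Y 2 * (Y 2 * x) + (Y 0 * D d1 x + (D d1 (Y 0 * x) + 0))) = 0
    rw [D_mul, D_Y, σ_Y]
    simp [d1]
    noncomm_ring
  · change Y 0 * (Y 3 * x) + (Y 3 * (Y 0 * x) + (Y 1 * (Y 2 * x) + (Y 2 * (Y 1 * x) + 0))) ∈ I
    have h1 : Y 0 * (Y 3 * x) + (Y 3 * (Y 0 * x) + (Y 1 * (Y 2 * x) + (Y 2 * (Y 1 * x) + 0))) =
      ρ * x := by rw [ρ]; noncomm_ring
    rw [h1]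
    exact I_mul_right _ ρ_mem
  · apply h0
    change D d1 (D d2 x) + (D d1 (D d2 x) + (D d1 (D d2 x) + (D d2 (D d1 x) + (D d2 (D d1 x) +
      (D d2 (D d1 x) + 0))))) = 0
    have h1 := anti x
    rw [eq_neg_of_add_eq_zero_left h1]
    abel
  · apply h0
    change Y 0 * D d2 x + (D d2 (Y 0 * x) + (Y 3 * (Y 1 * x) + (Y 3 * (Y 1 * x) + (Y 1 * (Y 3 * x) +
      (Y 1 * (Y 3 * x) + 0))))) = 0
    rw [D_mul, D_Y, σ_Y]
    simp [d2]
    noncomm_ring
  · apply h0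
    change Y 3 * D d2 x + (D d2 (Y 3 * x) + (Y 0 * (Y 2 * x) + (Y 0 * (Y 2 * x) + (Y 2 * (Y 0 * x) +
      (Y 2 * (Y 0 * x) + 0))))) = 0
    rw [D_mul, D_Y, σ_Y]
    simp [d2]
    noncomm_ring
  · apply h0
    change D d1 (Y 1 * x) + (Y 1 * D d1 x + (Y 3 * (Y 2 * x) + (Y 3 * (Y 2 * x) + (Y 2 * (Y 3 * x) +
      (Y 2 * (Y 3 * x) + 0))))) = 0
    rw [D_mul, D_Y, σ_Y]
    simp [d1]
    noncomm_ring
  · apply h0
    change D d1 (Y 2 * x) + (Y 2 * D d1 x + (Y 0 * (Y 1 * x) + (Y 0 * (Y 1 * x) + (Y 1 * (Y 0 * x) +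
      (Y 1 * (Y 0 * x) + 0))))) = 0
    rw [D_mul, D_Y, σ_Y]
    simp [d1]
    noncomm_ring


/-- the first matrix -/
def MS : Matrix (Fin 2) (Fin 2) 𝕜 := !![1, 1; 0, 0]

/-- the second matrix -/
def MT : Matrix (Fin 2) (Fin 2) 𝕜 := !![0, 0; 0, 1]

lemma MSS : (MS : Matrix (Fin 2) (Fin 2) 𝕜) * MS = MS := by
  rw [MS, Matrix.mul_fin_two]
  ext i j
  fin_cases i <;> fin_cases j <;> simp

lemma MTT : (MT : Matrix (Fin 2) (Fin 2) 𝕜) * MT = MT := by
  rw [MT, Matrix.mul_fin_two]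
  ext i j
  fin_cases i <;> fin_cases j <;> simp

lemma MTS : (MT : Matrix (Fin 2) (Fin 2) 𝕜) * MS = 0 := by
  rw [MT, MS, Matrix.mul_fin_two]
  ext i j
  fin_cases i <;> fin_cases j <;> simp

lemma MST : ((MS : Matrix (Fin 2) (Fin 2) 𝕜) * (MT : Matrix (Fin 2) (Fin 2) 𝕜)) 0 1 = 1 := by
  simp [MS, MT]

/-- the homomorphism to matrices -/
def Ψ : R 𝕜 →ₐ[𝕜] Matrix (Fin 2) (Fin 2) 𝕜 := FreeAlgebra.lift 𝕜 ![MS, MT, 0, 0]

lemma Ψ_Y (i : Fin 4) : Ψ (Y i : R 𝕜) = (![MS, MT, 0, 0] : Fin 4 → Matrix (Fin 2) (Fin 2) 𝕜) i := by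
  rw [Ψ, Y, FreeAlgebra.lift_ι_apply]

lemma Ψ_ρ : Ψ (ρ : R 𝕜) = 0 := by
  simp [ρ, Ψ_Y]

lemma Ψ_I {x : R 𝕜} (hx : x ∈ I) : Ψ x = 0 := by
  refine Submodule.span_induction (p := fun x _ => Ψ x = 0) ?_ ?_ ?_ ?_ hx
  · rintro _ ⟨b, c, rfl⟩
    rw [map_mul, map_mul, Ψ_ρ, mul_zero, zero_mul]
  · exact map_zero _
  · intro x y _ _ h1 h2
    rw [map_add, h1, h2, add_zero]
  · intro c x _ h1
    rw [map_smul, h1, smul_zero]

/-- the linear functional -/
def lam : R 𝕜 →ₗ[𝕜] 𝕜 where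
  toFun x := Ψ x 0 1
  map_add' a b := by rw [map_add]; rfl
  map_smul' c a := by rw [map_smul]; rfl

lemma lam_I {x : R 𝕜} (hx : x ∈ I) : lam x = 0 := by
  change Ψ x 0 1 = 0
  rw [Ψ_I hx]
  rfl

/-- words act on the algebra -/
def opl : List Lt → R 𝕜 →ₗ[𝕜] R 𝕜
  | [] => LinearMap.id
  | a :: w => (op a).comp (opl w)

lemma opl_append (u v : List Lt) (x : R 𝕜) : opl (u ++ v) x = opl u (opl v x) := by
  induction u with
  | nil => rfl
  | cons a u ih =>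
    change op a (opl (u ++ v) x) = op a (opl u (opl v x))
    rw [ih]

lemma opl_I (u : List Lt) {x : R 𝕜} (hx : x ∈ I) : opl u x ∈ I := by
  induction u with
  | nil => exact hx
  | cons a u ih => exact op_I a ih

section
variable {L : Type u} [Fintype L] (F : Finset (List L)) (φ : L → Lt)

/-- functions on words with values in `𝕜` that vanish outside `F`, all sums over two adjacent
letters are `0` -/
def Sol (z : List L → 𝕜) : Prop :=
  (∀ w, w ∉ F → z w = 0) ∧ ∀ u v : List L, ∑ x : L × L, z (u ++ x.1 :: x.2 :: v) = 0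

/-- the function -/
def zz (w : List L) : 𝕜 := if w ∈ F then lam (opl (w.map φ) 1) else 0

variable {F φ}

lemma zz_SOL (h : Pln F φ) : Sol F (zz (𝕜 := 𝕜) F φ) := by
  refine ⟨fun w hw => if_neg hw, fun u v => ?_⟩
  have h1 : ∑ x : L × L, zz (𝕜 := 𝕜) F φ (u ++ x.1 :: x.2 :: v) =
      ∑ x ∈ univ.filter (fun x : L × L => u ++ x.1 :: x.2 :: v ∈ F),
        lam (opl (u.map φ) (op (φ x.1) (op (φ x.2) (opl (v.map φ) 1)))) := by
    rw [Finset.sum_filter]
    refine Finset.sum_congr rfl fun x _ => ?_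
    unfold zz
    congr 1
    rw [List.map_append, opl_append]
    rfl
  rw [h1]
  rcases h u v with h2 | ⟨i, h2⟩
  · apply Finset.sum_eq_zero
    intro x hx
    exact absurd (Finset.mem_filter.1 hx).2 (h2 x)
  · have h3 := congrArg (fun s : Multiset (Lt × Lt) =>
      (s.map fun p => op p.1 (op p.2 (opl (v.map φ) (1 : R 𝕜)))).sum) h2
    simp only [Multiset.map_map, Function.comp_def, Multiset.map_coe, Multiset.sum_coe] at h3
    have h4 : ∑ x ∈ univ.filter (fun x : L × L => u ++ x.1 :: x.2 :: v ∈ F),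
        op (φ x.1) (op (φ x.2) (opl (v.map φ) (1 : R 𝕜))) ∈ I := by
      rw [Finset.sum, h3]
      exact rl_mem i _
    rw [← map_sum, ← map_sum]
    exact lam_I (opl_I _ h4)

/-- the matrices of the letters -/
def mt : Lt → Matrix (Fin 2) (Fin 2) 𝕜
  | Lt.y1 => MS
  | Lt.y2 => MT
  | _ => 0

lemma lam_word (w : List Lt) (hw : ∀ a ∈ w, a = Lt.y1 ∨ a = Lt.y2) :
    Ψ (opl w (1 : R 𝕜)) = (w.map mt).prod := by
  induction w with
  | nil => exact map_one Ψ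
  | cons a w ih =>
    have h1 := ih fun b hb => hw b (by simp [hb])
    rw [List.map_cons, List.prod_cons, ← h1]
    rcases hw a (by simp) with rfl | rfl
    · change Ψ (Y 0 * opl w 1) = _
      rw [map_mul, Ψ_Y]
      rfl
    · change Ψ (Y 1 * opl w 1) = _
      rw [map_mul, Ψ_Y]
      rfl

/-- iterated super commutators -/
def bra : List Lt → Matrix (Fin 2) (Fin 2) 𝕜
  | [] => 0
  | [a] => mt a
  | a :: b :: w => mt a * bra (b :: w) + (-1) ^ ((b :: w).length + 1) • (bra (b :: w) * mt a)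

lemma bra_cons (a : Lt) {w : List Lt} (hw : w ≠ []) :
    (bra (a :: w) : Matrix (Fin 2) (Fin 2) 𝕜) = mt a * bra w + (-1 : ℤ) ^ (w.length + 1) • (bra w * mt a) := by
  obtain ⟨b, w, rfl⟩ := List.exists_cons_of_ne_nil hw
  rfl

lemma ev_prod (φ : L → Lt) (g : List L) : ∀ u v : List L,
    ev (fun w => (((w.map φ).map mt).prod 0 1 : 𝕜)) g u v =
      (((((u.map φ).map mt).prod * bra (g.map φ) * ((v.map φ).map mt).prod :
        Matrix (Fin 2) (Fin 2) 𝕜)) 0 1) := by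
  induction g with
  | nil => intro u v; simp [ev_nil, bra]
  | cons l g ih =>
    intro u v
    rcases g.eq_nil_or_concat' with rfl | h
    · rw [ev_single]
      simp [bra, mul_assoc]
    · have hg : g ≠ [] := by rcases h with ⟨a, b, rfl⟩; simp
      have hg' : g.map φ ≠ [] := by simpa using hg
      rw [ev_cons _ _ hg, ih, ih]
      simp only [List.map_cons, List.map_append, List.prod_append, List.map_nil, List.prod_cons,
        List.prod_nil, mul_one]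
      rw [bra_cons _ hg', List.length_map]
      have e1 : ((u.map φ).map (mt (𝕜 := 𝕜))).prod * (mt (φ l) * bra (g.map φ) +
          (-1 : ℤ) ^ (g.length + 1) • (bra (g.map φ) * mt (φ l))) * ((v.map φ).map mt).prod =
          ((u.map φ).map mt).prod * mt (φ l) * bra (g.map φ) * ((v.map φ).map mt).prod +
          (-1 : ℤ) ^ (g.length + 1) • (((u.map φ).map mt).prod * bra (g.map φ) *
            (mt (φ l) * ((v.map φ).map mt).prod)) := by
        rw [mul_add, add_mul, mul_smul_comm, smul_mul_assoc]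
        simp only [mul_assoc]
      rw [e1, Matrix.add_apply, Matrix.smul_apply, zsmul_eq_mul]
      push_cast
      rfl

lemma bra_one {j : ℕ} (hj : 1 ≤ j) :
    (bra (List.replicate j Lt.y1 ++ [Lt.y2]) : Matrix (Fin 2) (Fin 2) 𝕜) = MS * MT := by
  induction j with
  | zero => omega
  | succ j ih =>
    rw [List.replicate_succ, List.cons_append, bra_cons _ (by simp)]
    rcases Nat.eq_zero_or_pos j with rfl | hj'
    · change MS * MT + _ • (MT * MS) = _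
      rw [MTS, smul_zero, add_zero]
    · rw [ih hj']
      change MS * (MS * MT) + _ • (MS * MT * MS) = _
      rw [mul_assoc MS MT MS, MTS, mul_zero, smul_zero, add_zero, ← mul_assoc, MSS]

lemma bra_two {j : ℕ} (hj : 1 ≤ j) (m : ℕ) : ∃ s : ℤ, (s = 1 ∨ s = -1) ∧
    (bra (List.replicate m Lt.y2 ++ (List.replicate j Lt.y1 ++ [Lt.y2])) :
      Matrix (Fin 2) (Fin 2) 𝕜) = s • (MS * MT) := by
  induction m with
  | zero => exact ⟨1, Or.inl rfl, by rw [one_smul]; exact bra_one hj⟩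
  | succ m ih =>
    obtain ⟨s, hs, h1⟩ := ih
    rw [List.replicate_succ, List.cons_append, bra_cons _ (by simp), h1]
    refine ⟨(-1) ^ ((List.replicate m Lt.y2 ++ (List.replicate j Lt.y1 ++ [Lt.y2])).length + 1) * s,
      ?_, ?_⟩
    · rcases neg_one_pow_eq_or ℤ
        ((List.replicate m Lt.y2 ++ (List.replicate j Lt.y1 ++ [Lt.y2])).length + 1) with h2 | h2 <;>
      rcases hs with rfl | rfl <;> rw [h2] <;> simp
    change MT * (s • (MS * MT)) + _ • (s • (MS * MT) * MT) = _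
    rw [mul_smul_comm, ← mul_assoc, MTS, zero_mul, smul_zero, zero_add, smul_mul_assoc, mul_assoc,
      MTT, smul_smul]

/-- **the abstract theorem** -/
theorem exists_sol (hperm : ∀ w ∈ F, ∀ w' : List L, w.Perm w' → w' ∈ F) (h : Pln F φ) {g : List L}
    (hg : g ∈ F) {m j : ℕ} (hj : 1 ≤ j)
    (hφ : g.map φ = List.replicate m Lt.y2 ++ (List.replicate j Lt.y1 ++ [Lt.y2])) :
    ∃ z : List L → 𝕜, Sol F z ∧ ev z g [] [] ≠ 0 := by
  refine ⟨zz F φ, zz_SOL h, ?_⟩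
  have hy : ∀ a ∈ g.map φ, a = Lt.y1 ∨ a = Lt.y2 := by
    intro a ha
    rw [hφ] at ha
    simp only [List.mem_append, List.mem_replicate, List.mem_singleton] at ha
    tauto
  have h1 : ev (zz (𝕜 := 𝕜) F φ) g [] [] = ev (fun w => (((w.map φ).map mt).prod 0 1 : 𝕜)) g [] [] := by
    apply Vale.Agent.P240.R2.H986.ev_congr
    intro w hw
    rw [List.nil_append, List.append_nil] at hw
    have hwF : w ∈ F := hperm g hg w hw.symm
    unfold zz
    rw [if_pos hwF]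
    change Ψ (opl (w.map φ) 1) 0 1 = _
    rw [lam_word]
    intro a ha
    exact hy a ((hw.map φ).mem_iff.1 ha)
  rw [h1, ev_prod]
  obtain ⟨s, hs, h2⟩ := bra_two (𝕜 := 𝕜) hj m
  rw [hφ, h2]
  simp only [List.map_nil, List.prod_nil, one_mul, mul_one]
  rw [Matrix.smul_apply, MST, zsmul_eq_mul, mul_one]
  rcases hs with rfl | rfl <;> simp


end

end

end Vale.Agent.P240.R2.H987.F5K
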