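import Vale.Agent.P240.R2.H987.TopAt
import Vale.Agent.P240.R2.H987.F5K
import Vale.Agent.P240.R2.H490.P5Geo

/-!
Block (L6): frames of a diagonal form over the field with five elements, with a prescribed number of
nonsquare lines: top cycles over every field, with explicit flags.
-/

set_option autoImplicit false
set_option linter.all false

namespace Vale.Agent.P240.R2.H987

open Subgroup Matrix Vale.Agent.P240 Vale.Agent.P240.K
open Vale.Agent.P240.R2 Vale.Agent.P240.R2.H938 Vale.Agent.P240.R2.H490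
open Vale.Agent.P240.H138

universe u v w x

/-! ### solutions over every field -/

section
variable {L : Type v} {K : Type*} [Field K] {V : Type*} [AddCommGroup V] [Module K V]
variable {F : Finset (List L)} {S : Set L} {B : LinearMap.BilinForm K V} {vec : L → V}

/-- `k` nonsquare lines, `1 ≤ k ≤ n - 1`: a solution over every field -/
theorem geo_sol (h : F5.Geo F S B vec) [Fintype L] (e : K ≃+* ZMod 5) {g : List L} (hg : g ∈ F)
    {m j : ℕ} (hj : 1 ≤ j) (ht : g.map (fun l => IsSquare (B (vec l) (vec l))) =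
      List.replicate m False ++ (List.replicate j True ++ [False])) (𝕜 : Type w) [Field 𝕜] :
    ∃ z : List L → 𝕜, F5K.Sol F z ∧ H986.ev z g [] [] ≠ 0 := by
  classical
  refine F5K.exists_sol h.perm (h.pln e (F5.Geo.vv e B vec g)) hg (m := m) hj ?_
  have h1 : ∀ l ∈ g, F5.ph e B (F5.Geo.vv e B vec g) (vec l) =
      if IsSquare (B (vec l) (vec l)) then F5.Lt.y1 else F5.Lt.y2 := by
    intro l hl
    have hN := h.ne l (h.mem g hg l hl)
    have hN' : e (B (vec l) (vec l)) ≠ 0 := by simpa using hN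
    rw [F5.ph, h.B_vv e (h.orth g hg) hl, map_mul, e.apply_symm_apply]
    split_ifs with h2 h2
    all_goals try exact F5.lt_sq _ _ ((F5.isSquare_iff e hN).1 ‹_›) (by simp_all)
    all_goals
      exact F5.lt_ns _ _ hN' (fun h3 => absurd ((F5.isSquare_iff e hN).2 h3) ‹_›) (by simp_all)
  have h2 : g.map (fun l => F5.ph e B (F5.Geo.vv e B vec g) (vec l)) =
      (g.map (fun l => IsSquare (B (vec l) (vec l)))).map
        (fun p => if p then F5.Lt.y1 else F5.Lt.y2) := by
    rw [List.map_map]
    exact List.map_congr_left h1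
  rw [h2, ht]
  simp

end

/-! ### diagonal forms -/

section
variable {K : Type u} [Field K] {n : ℕ}

/-- the bilinear form -/
def Bd (d : Fin n → K) : LinearMap.BilinForm K (Fin n → K) :=
  LinearMap.mk₂ K (ip d) (ip_add_left d) (fun c x y => by rw [ip_smul_left, smul_eq_mul])
    (ip_add_right d) (fun c x y => by rw [ip_smul_right, smul_eq_mul])

lemma Bd_apply (d : Fin n → K) (x y : Fin n → K) : Bd d x y = ip d x y := rfl

variable [Finite K] {d : Fin n → K}

/-- the frames of a diagonal form -/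
theorem geo_FrD (hd : ∀ i, d i ≠ 0) : F5.Geo (FrD d) Set.univ (Bd d) (Lt.x (d := d)) where
  perm w hw w' hww' := by
    obtain ⟨h4, h5⟩ := mem_FrD.1 hw
    exact mem_FrD.2 ⟨hww'.length_eq ▸ h4, (hww'.pairwise_iff fun {P Q} h => v_symm P Q h).1 h5⟩
  mem _ _ _ _ := trivial
  symm x y := ip_comm d x y
  ne l _ := l.hx
  inj l _ l' _ c h := by
    apply Lt.ext'
    have hc : c ≠ 0 := by
      rintro rfl
      rw [zero_smul] at h
      exact ip_ne d l'.hx h
    rw [l'.v_eq, l.v_eq, h, pj_smul d hc]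
  orth w hw := (mem_FrD.1 hw).2.imp fun {P Q} h => (Lt.orth_iff P Q).1 h
  span u a b a' b' v h1 h2 := by
    have h3 : (u ++ a :: b :: v).Perm (a :: b :: (u ++ v)) := by
      rw [show u ++ a :: b :: v = u ++ ([a, b] ++ v) by simp, ← List.append_assoc]
      exact (List.perm_append_comm.append_right _).trans (by simp)
    have h4 : (u ++ a' :: b' :: v).Perm (a' :: b' :: (u ++ v)) := by
      rw [show u ++ a' :: b' :: v = u ++ ([a', b'] ++ v) by simp, ← List.append_assoc]
      exact (List.perm_append_comm.append_right _).trans (by simp)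
    obtain ⟨h5, h6⟩ := mem_FrD.1 h1
    obtain ⟨h7, h8⟩ := mem_FrD.1 h2
    have h6' := (h3.pairwise_iff fun {P Q} h => v_symm P Q h).1 h6
    have h8' := (h4.pairwise_iff fun {P Q} h => v_symm P Q h).1 h8
    have h9 := Sm_eq_one h6' (h3.length_eq ▸ h5)
    have h10 := Sm_eq_one h8' (h4.length_eq ▸ h7)
    rw [Sm_cons, Sm_cons, ← add_assoc] at h9 h10
    have h11 : a.v + b.v = a'.v + b'.v := add_right_cancel (h9.trans h10.symm)
    have hce : a'.v * b'.v = 0 := (List.pairwise_cons.1 h8').1 b' (by simp)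
    have h12 : (a'.v + b'.v) *ᵥ a'.x = a'.x := by
      rw [add_mulVec, a'.v_eq, pj_self d a'.hx, b'.v_eq, pj_mulVec, ip_comm d b'.x a'.x,
        (Lt.orth_iff _ _).1 hce, mul_zero, zero_smul, add_zero]
    rw [← h11, add_mulVec, a.v_eq, b.v_eq, pj_mulVec, pj_mulVec] at h12
    exact ⟨_, _, h12.symm⟩
  ex u a b v h1 c e h2 := by
    obtain ⟨h5, h6⟩ := mem_FrD.1 h1
    have h3 : (u ++ a :: b :: v).Perm (a :: b :: (u ++ v)) := by
      rw [show u ++ a :: b :: v = u ++ ([a, b] ++ v) by simp, ← List.append_assoc]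
      exact (List.perm_append_comm.append_right _).trans (by simp)
    have h6' := (h3.pairwise_iff fun {P Q} h => v_symm P Q h).1 h6
    obtain ⟨ha, hb⟩ := List.pairwise_cons.1 h6'
    obtain ⟨hb, hr⟩ := List.pairwise_cons.1 hb
    have hab : ip d a.x b.x = 0 := (Lt.orth_iff _ _).1 (ha b (by simp))
    have hba : ip d b.x a.x = 0 := by rw [ip_comm]; exact hab
    -- the second vector
    set y : Fin n → K := (-e * ip d b.x b.x) • a.x + (c * ip d a.x a.x) • b.x with hy
    have h2' : ip d (c • a.x + e • b.x) (c • a.x + e • b.x) ≠ 0 := h2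
    have hn : ip d (c • a.x + e • b.x) (c • a.x + e • b.x) =
        c * c * ip d a.x a.x + e * e * ip d b.x b.x := by
      simp only [ip_add_left, ip_add_right, ip_smul_left, ip_smul_right, hab, hba]
      ring
    have hyy : ip d y y = ip d a.x a.x * ip d b.x b.x *
        (c * c * ip d a.x a.x + e * e * ip d b.x b.x) := by
      rw [hy]
      simp only [ip_add_left, ip_add_right, ip_smul_left, ip_smul_right, hab, hba]
      ring
    have hy0 : ip d y y ≠ 0 := by
      rw [hyy]
      exact mul_ne_zero (mul_ne_zero a.hx b.hx) (hn ▸ h2')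
    have hxy : ip d (c • a.x + e • b.x) y = 0 := by
      rw [hy]
      simp only [ip_add_left, ip_add_right, ip_smul_left, ip_smul_right, hab, hba]
      ring
    obtain ⟨t, ht0, ht⟩ := lt_x (d := d) h2'
    obtain ⟨s, hs0, hs⟩ := lt_x (d := d) hy0
    refine ⟨lt h2', lt hy0, ?_, t, ht⟩
    have h4 : (u ++ lt h2' :: lt hy0 :: v).Perm (lt h2' :: lt hy0 :: (u ++ v)) := by
      rw [show u ++ lt h2' :: lt hy0 :: v = u ++ ([lt h2', lt hy0] ++ v) by simp,
        ← List.append_assoc]
      exact (List.perm_append_comm.append_right _).trans (by simp)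
    refine mem_FrD.2 ⟨?_, (h4.pairwise_iff fun {P Q} h => v_symm P Q h).2 ?_⟩
    · refine Eq.trans ?_ h5
      simp
    · have hother : ∀ Q ∈ u ++ v, ip d a.x Q.x = 0 ∧ ip d b.x Q.x = 0 := fun Q hQ =>
        ⟨(Lt.orth_iff _ _).1 (ha Q (List.mem_cons_of_mem _ hQ)), (Lt.orth_iff _ _).1 (hb Q hQ)⟩
      refine List.pairwise_cons.2 ⟨fun Q hQ => ?_, List.pairwise_cons.2 ⟨fun Q hQ => ?_, hr⟩⟩
      · rw [Lt.orth_iff, ht]
        rcases List.mem_cons.1 hQ with rfl | hQ
        · rw [hs, ip_smul_left, ip_smul_right, hxy, mul_zero, mul_zero]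
        · obtain ⟨h7, h8⟩ := hother Q hQ
          rw [ip_smul_left, ip_add_left, ip_smul_left, ip_smul_left, h7, h8]
          ring
      · rw [Lt.orth_iff, hs]
        obtain ⟨h7, h8⟩ := hother Q hQ
        rw [hy, ip_smul_left, ip_add_left, ip_smul_left, ip_smul_left, h7, h8]
        ring

/-! ### top cycles -/

section
variable {G : Type w} [Group G] {R : (Fin n → K) → G}

/-- the group generated by the letters of a word -/
lemma SS_Ew (w : List (Lt d)) : AS.SS (Ew fun P : Lt d => R P.x) w =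
    closure {y | ∃ P ∈ w, y = R P.x} := by
  rw [AS.SS]
  congr 1
  ext y
  simp only [Set.mem_setOf_eq, Ew_cons, Ew_nil, mul_one]

/-- **Top cycles for the frames with a prescribed number of nonsquare lines.** -/
theorem top_FrD [Finite G] (e : K ≃+* ZMod 5) (hn : 2 ≤ n) (hd : ∀ i, d i ≠ 0) (h : VR d R)
    (hfull : ∀ w ∈ FrD d, Ew (fun P : Lt d => R P.x) w = 1) (H : Subgroup G)
    (hH : ∀ x, ip d x x ≠ 0 → R x ∈ H) {g : List (Lt d)} (hg : g ∈ FrD d) {m j : ℕ} (hj : 1 ≤ j)
    (ht : g.map (fun P => IsSquare (ip d P.x P.x)) =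
      List.replicate m False ++ (List.replicate j True ++ [False])) (𝕜 : Type x) [Field 𝕜] :
    ∃ α, TopCycle 𝕜 2 H (AS.SS (Ew fun P : Lt d => R P.x) g.dropLast) α
      (flag (Ew fun P : Lt d => R P.x) g) := by
  have : Fact (Nat.Prime 2) := ⟨Nat.prime_two⟩
  have h2 : (2 : K) ≠ 0 := by
    intro h0
    have h1 := congrArg e h0
    rw [map_ofNat, map_zero] at h1
    exact absurd h1 (by decide)
  have h3 : (3 : K) ≠ 0 := by
    intro h0
    have h1 := congrArg e h0
    rw [map_ofNat, map_zero] at h1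
    exact absurd h1 (by decide)
  obtain ⟨z, hz, hev⟩ := geo_sol (geo_FrD hd) e hg hj ht 𝕜
  refine ⟨_, top_at hn (h.rs hd h2 h3 hfull).comb H (fun u v _ => ?_) z hz.1 hz.2 hg hev⟩
  have : ∀ u : List (Lt d), Ew (fun P : Lt d => R P.x) u ∈ H := by
    intro u
    induction u with
    | nil => exact one_mem _
    | cons a u ih => exact mul_mem (hH _ a.hx) ih
  exact this u

/-- the letters of a frame generate the same group without the last one -/
lemma SS_dropLast (hfull : ∀ w ∈ FrD d, Ew (fun P : Lt d => R P.x) w = 1) {g : List (Lt d)}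
    (hg : g ∈ FrD d) : AS.SS (Ew fun P : Lt d => R P.x) g.dropLast =
      closure {y | ∃ P ∈ g, y = R P.x} := by
  rw [SS_Ew]
  refine le_antisymm (closure_mono ?_) ?_
  · rintro y ⟨P, hP, rfl⟩
    exact ⟨P, List.mem_of_mem_dropLast hP, rfl⟩
  · rw [closure_le]
    rintro y ⟨P, hP, rfl⟩
    rcases List.eq_nil_or_concat' g with rfl | ⟨g', a, rfl⟩
    · simp at hP
    · rw [List.dropLast_concat]
      have hmem : Ew (fun P : Lt d => R P.x) g' ∈ closure {y | ∃ P ∈ g', y = R P.x} := by
        have : ∀ u : List (Lt d), (∀ P ∈ u, P ∈ g') → Ew (fun P : Lt d => R P.x) u ∈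
            closure {y | ∃ P ∈ g', y = R P.x} := by
          intro u
          induction u with
          | nil => intro _; exact one_mem _
          | cons a u ih =>
            intro h
            exact mul_mem (subset_closure ⟨a, h a (by simp), rfl⟩)
              (ih fun P hP => h P (List.mem_cons_of_mem _ hP))
        exact this g' fun P hP => hP
      rcases List.mem_append.1 hP with hP | hP
      · exact subset_closure ⟨P, hP, rfl⟩
      · rw [List.mem_singleton] at hP
        subst hP
        have h1 := hfull _ hg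
        rw [Ew_append, Ew_cons, Ew_nil, mul_one] at h1
        rw [SetLike.mem_coe, eq_inv_of_mul_eq_one_right h1]
        exact inv_mem hmem

/-! ### the standard frame -/

/-- the letter of a coordinate vector -/
noncomputable def le (hd : ∀ i, d i ≠ 0) (i : Fin n) : Lt d :=
  lt (d := d) (x := Pi.single i 1) (by rw [ip_single_right, Pi.single_eq_same, mul_one]; exact hd i)

lemma le_x (hd : ∀ i, d i ≠ 0) (i : Fin n) :
    ∃ c : K, c ≠ 0 ∧ (le hd i).x = c • (Pi.single i 1 : Fin n → K) := lt_x _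

omit [Finite K] in
lemma isSquare_mul_mul {c a : K} (hc : c ≠ 0) : IsSquare (c * (c * a)) ↔ IsSquare a := by
  constructor
  · rintro ⟨r, hr⟩
    refine ⟨c⁻¹ * r, ?_⟩
    have h1 : a = c⁻¹ * c⁻¹ * (c * (c * a)) := by field_simp
    rw [h1, hr]
    ring
  · rintro ⟨r, rfl⟩
    exact ⟨c * r, by ring⟩

lemma le_sq (hd : ∀ i, d i ≠ 0) (i : Fin n) :
    IsSquare (ip d (le hd i).x (le hd i).x) ↔ IsSquare (d i) := by
  obtain ⟨c, hc, h⟩ := le_x hd i
  rw [h, ip_smul_left, ip_smul_right, ip_single_right, Pi.single_eq_same, mul_one]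
  exact isSquare_mul_mul hc

lemma le_orth (hd : ∀ i, d i ≠ 0) {i j : Fin n} (hij : i ≠ j) :
    (le hd i).v * (le hd j).v = 0 := by
  obtain ⟨c, hc, h⟩ := le_x hd i
  obtain ⟨c', hc', h'⟩ := le_x hd j
  rw [Lt.orth_iff, h, h', ip_smul_left, ip_smul_right, ip_single_right,
    Pi.single_eq_of_ne hij.symm, mul_zero, mul_zero, mul_zero]

lemma le_mem (hd : ∀ i, d i ≠ 0) {l : List (Fin n)} (h1 : l.Nodup) (h2 : ∀ i, i ∈ l) :
    l.map (le hd) ∈ FrD d := by
  classical
  refine mem_FrD.2 ⟨?_, ?_⟩
  · rw [List.length_map, ← List.toFinset_card_of_nodup h1]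
    have : l.toFinset = Finset.univ := Finset.eq_univ_of_forall fun i => List.mem_toFinset.2 (h2 i)
    rw [this, Finset.card_univ, Fintype.card_fin]
  · rw [List.pairwise_map]
    exact h1.imp fun {i j} hij => le_orth hd hij

/-- an order of the coordinates with prescribed types -/
lemma exists_order (hd : ∀ i, d i ≠ 0) (h1 : ∃ i, IsSquare (d i)) (h2 : ∃ i, ¬ IsSquare (d i)) :
    ∃ l : List (Fin n), l.Nodup ∧ (∀ i, i ∈ l) ∧ ∃ m j : ℕ, 1 ≤ j ∧
      (l.map (le hd)).map (fun P => IsSquare (ip d P.x P.x)) =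
        List.replicate m False ++ (List.replicate j True ++ [False]) := by
  classical
  obtain ⟨i0, hi0⟩ := h2
  let A : Finset (Fin n) := Finset.univ.filter fun i => ¬ IsSquare (d i) ∧ i ≠ i0
  let C : Finset (Fin n) := Finset.univ.filter fun i => IsSquare (d i)
  refine ⟨A.toList ++ (C.toList ++ [i0]), ?_, ?_, A.toList.length, C.toList.length, ?_, ?_⟩
  · rw [List.nodup_append, List.nodup_append]
    refine ⟨Finset.nodup_toList _, ⟨Finset.nodup_toList _, List.nodup_singleton _, ?_⟩, ?_⟩
    · intro a ha b hb hab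
      rw [List.mem_singleton] at hb
      rw [Finset.mem_toList, Finset.mem_filter] at ha
      exact hi0 (hb ▸ hab ▸ ha.2)
    · intro a ha b hb hab
      rw [Finset.mem_toList, Finset.mem_filter] at ha
      rw [List.mem_append, List.mem_singleton, Finset.mem_toList, Finset.mem_filter] at hb
      subst hab
      rcases hb with hb | hb
      · exact ha.2.1 hb.2
      · exact ha.2.2 hb
  · intro i
    rw [List.mem_append, List.mem_append, List.mem_singleton, Finset.mem_toList, Finset.mem_toList,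
      Finset.mem_filter, Finset.mem_filter]
    by_cases h3 : IsSquare (d i)
    · exact Or.inr (Or.inl ⟨Finset.mem_univ _, h3⟩)
    · by_cases h4 : i = i0
      · exact Or.inr (Or.inr h4)
      · exact Or.inl ⟨Finset.mem_univ _, h3, h4⟩
  · obtain ⟨i1, hi1⟩ := h1
    have : i1 ∈ C.toList := by
      rw [Finset.mem_toList, Finset.mem_filter]
      exact ⟨Finset.mem_univ _, hi1⟩
    exact List.length_pos_of_mem this
  · rw [List.map_map, List.map_append, List.map_append]
    congr 1
    · refine List.eq_replicate_iff.2 ⟨List.length_map _, fun b hb => ?_⟩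
      obtain ⟨i, hi, rfl⟩ := List.mem_map.1 hb
      rw [Finset.mem_toList, Finset.mem_filter] at hi
      exact eq_false (fun h => hi.2.1 ((le_sq hd i).1 h))
    · congr 1
      · refine List.eq_replicate_iff.2 ⟨List.length_map _, fun b hb => ?_⟩
        obtain ⟨i, hi, rfl⟩ := List.mem_map.1 hb
        rw [Finset.mem_toList, Finset.mem_filter] at hi
        exact eq_true ((le_sq hd i).2 hi.2)
      · rw [List.map_cons, List.map_nil]
        congr 1
        exact eq_false (fun h => hi0 ((le_sq hd i0).1 h))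

/-- **Block (L6).** Top cycles for the standard frame of a diagonal form with square and nonsquare
entries over the field with five elements. -/
theorem top_std [Finite G] (e : K ≃+* ZMod 5) (hn : 2 ≤ n) (hd : ∀ i, d i ≠ 0) (h : VR d R)
    (hfull : ∀ w ∈ FrD d, Ew (fun P : Lt d => R P.x) w = 1) (H : Subgroup G)
    (hH : ∀ x, ip d x x ≠ 0 → R x ∈ H) (h1 : ∃ i, IsSquare (d i)) (h2 : ∃ i, ¬ IsSquare (d i))
    (𝕜 : Type x) [Field 𝕜] :
    ∃ (α : Ch 𝕜 (Subgroup G)) (φ : List (Subgroup G)),
      TopCycle 𝕜 2 H (closure (Set.range fun i => R (Pi.single i 1))) α φ := by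
  obtain ⟨l, hl1, hl2, m, j, hj, ht⟩ := exists_order hd h1 h2
  obtain ⟨α, hα⟩ := top_FrD e hn hd h hfull H hH (le_mem hd hl1 hl2) hj ht 𝕜
  refine ⟨α, flag (Ew fun P : Lt d => R P.x) (l.map (le hd)), ?_⟩
  rw [SS_dropLast hfull (le_mem hd hl1 hl2)] at hα
  have h3 : {y | ∃ P ∈ l.map (le hd), y = R P.x} = Set.range fun i => R (Pi.single i 1) := by
    ext y
    constructor
    · rintro ⟨P, hP, rfl⟩
      obtain ⟨i, -, rfl⟩ := List.mem_map.1 hP
      obtain ⟨c, hc, h4⟩ := le_x hd i
      refine ⟨i, ?_⟩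
      show R (Pi.single i 1) = R (le hd i).x
      rw [h4, h.smul c _ hc (by rw [ip_single_right, Pi.single_eq_same, mul_one]; exact hd i)]
    · rintro ⟨i, rfl⟩
      obtain ⟨c, hc, h4⟩ := le_x hd i
      refine ⟨le hd i, List.mem_map.2 ⟨i, hl2 i, rfl⟩, ?_⟩
      show R (Pi.single i 1) = R (le hd i).x
      rw [h4, h.smul c _ hc (by rw [ip_single_right, Pi.single_eq_same, mul_one]; exact hd i)]
  rw [h3] at hα
  exact hα

end

end

end Vale.Agent.P240.R2.H987
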