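import Vale.Agent.P240.R2.H775.Top1

/-!
Top cycles from `AS.Comb` data and a solution `z`, over every field, with an explicit flag: the
groups generated by the initial segments of a prescribed frame `g`.
-/

set_option autoImplicit false
set_option linter.all false

namespace Vale.Agent.P240.R2.H987

open Finsupp hiding cons
open Subgroup Vale.Agent.P240 Vale.Agent.P240.K
open Vale.Agent.P240.R2 Vale.Agent.P240.R2.H938

universe u v w

section
variable {G : Type u} [Group G] {X : Type v}

/-- the flag of the frame `g`: the groups generated by the elements of the proper nonempty initial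
segments, the largest first -/
def flag (e : List X → G) (g : List X) : List (Subgroup G) :=
  ((List.range (g.length - 1)).map fun j => AS.SS e (g.take (j + 1))).reverse

lemma flag_length (e : List X → G) (g : List X) : (flag e g).length = g.length - 1 := by
  simp [flag]

lemma bs_app {Λ : Type*} [SemilatticeSup Λ] [OrderBot Λ] (C : List X → Λ) (B : Λ) (u v : List X) :
    bs C B (u ++ v) = bs C (bs C B v) u := by
  rw [bs, bs, bs, List.foldr_append]

lemma bs_sup {Λ : Type*} [SemilatticeSup Λ] [OrderBot Λ] (C : List X → Λ) (B : Λ) (x : Λ)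
    (u : List X) : bs C (B ⊔ x) u = bs C B u ⊔ x := by
  induction u with
  | nil => rfl
  | cons a u ih =>
    show C [a] ⊔ bs C (B ⊔ x) u = C [a] ⊔ bs C B u ⊔ x
    rw [ih, sup_assoc]

/-- the comb chain -/
lemma comb_eq {Λ : Type*} [SemilatticeSup Λ] [OrderBot Λ] (C : List X → Λ) (g : List X) :
    ∀ B : Λ, comb C B g =
      ((List.range (g.length - 1)).map fun j => bs C B (g.take (j + 1))).reverse := by
  induction g with
  | nil => intro B; rfl
  | cons l L ih =>
    intro B
    by_cases hL : L = []
    · subst hL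
      rfl
    · rw [comb_cons C B l hL, ih]
      obtain ⟨k, hk⟩ : ∃ k, L.length = k + 1 :=
        Nat.exists_eq_succ_of_ne_zero fun h => hL (List.length_eq_zero_iff.1 h)
      have h1 : (l :: L).length - 1 = k + 1 := by simp [hk]
      rw [h1, hk, Nat.add_sub_cancel, List.range_succ_eq_map, List.map_cons, List.reverse_cons,
        List.map_map]
      congr 2
      · refine List.map_congr_left fun j _ => ?_
        show bs C (B ⊔ C [l]) (L.take (j + 1)) = bs C B ((l :: L).take (j + 1 + 1))
        rw [List.take_succ_cons, bs_sup]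
        show bs C B (L.take (j + 1)) ⊔ C [l] = C [l] ⊔ bs C B (L.take (j + 1))
        rw [sup_comm]
      · show B ⊔ C [l] = bs C B ((l :: L).take (0 + 1))
        rw [List.take_succ_cons, List.take_zero]
        show B ⊔ C [l] = C [l] ⊔ B
        rw [sup_comm]

lemma comb_flag (e : List X → G) (g : List X) :
    comb (fun w => zpowers (e w)) ⊥ g = flag e g := by
  rw [comb_eq, flag]
  simp only [bs_SS]

lemma flag_head (e : List X → G) {g : List X} (hg : 2 ≤ g.length) :
    ∃ φ', flag e g = AS.SS e g.dropLast :: φ' := by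
  obtain ⟨k, hk⟩ : ∃ k, g.length - 1 = k + 1 := ⟨g.length - 2, by omega⟩
  refine ⟨((List.range k).map fun j => AS.SS e (g.take (j + 1))).reverse, ?_⟩
  rw [flag, hk, List.range_succ, List.map_append, List.reverse_append, List.map_cons, List.map_nil,
    List.reverse_singleton, List.singleton_append, List.dropLast_eq_take, hk]

end

section
variable {𝕜 : Type w} [Field 𝕜] {G : Type u} [Group G] [Finite G] {X : Type v} [Fintype X]
  {p n : ℕ} {F : Finset (List X)} {e : List X → G}

/-- **The top cycle with the prescribed flag.** -/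
theorem top_at [hp : Fact p.Prime] (hn : 2 ≤ n) (hc : AS.Comb p n F e) (H : Subgroup G)
    (hH : ∀ u v : List X, u ++ v ∈ F → e u ∈ H) (z : List X → 𝕜) (hz0 : ∀ w, w ∉ F → z w = 0)
    (hz : ∀ u v : List X, ∑ x : X × X, z (u ++ x.1 :: x.2 :: v) = 0) {g : List X} (hg : g ∈ F)
    (hev : H986.ev z g [] [] ≠ 0) :
    TopCycle 𝕜 p H (AS.SS e g.dropLast) (mu (fun w => zpowers (e w)) F z) (flag e g) := by
  have hlen : g.length = n := hc.len g hg
  have hmem := H775.mu_head (𝕜 := 𝕜) (p := p) hn e F z H hH hc.len hc.comm hc.pow hc.nil hc.full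
    hc.card
  have hne : mu (fun w => zpowers (e w)) F z (flag e g) ≠ 0 := by
    have h1 := mu_comb (fun w => zpowers (e w)) F z hz0 ⊥ (f := g) (by rw [hlen]; exact hn) hg
      (fun m hm => (hc.len m hm).trans hlen.symm) hc.nodup hc.perm (sep_of_comb hc)
    have h2 : (fun t : Subgroup G => ⊥ ⊔ t) = id := funext fun t => bot_sup_eq t
    have h3 : mp (id : Subgroup G → Subgroup G) (mu (fun w => zpowers (e w)) F z) =
        mu (fun w => zpowers (e w)) F z := by
      have := lin_ext_apply (f := mp (𝕜 := 𝕜) (id : Subgroup G → Subgroup G)) (g := LinearMap.id)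
        (fun l => by simp) (mu (fun w => zpowers (e w)) F z)
      simpa using this
    rw [h2, h3, brF_ev', comb_flag] at h1
    rw [h1]
    exact mul_ne_zero (csgn_ne _) hev
  obtain ⟨φ', hφ⟩ := flag_head e (g := g) (by rw [hlen]; exact hn)
  refine ⟨?_, comb_bd hc z hz0 hz, hne, Or.inr ⟨φ', hφ⟩, ?_⟩
  · refine Sp_mono (fun l hl => ⟨hl.1.1, ?_⟩) hmem
    rw [flag_length, hlen]
    exact hl.1.2
  · obtain ⟨-, B, ⟨w, hw, rfl⟩, hB⟩ := (mem_Sp.1 hmem) (flag e g) (Finsupp.mem_support_iff.2 hne)
    rw [hφ, List.head?_cons, Option.some.injEq] at hB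
    rw [hB, flag_length, hlen]
    exact hc.card w hw

end

end Vale.Agent.P240.R2.H987
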